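import Mathlib

/-!
# Occurrence of 2-adic Galois representations in the 2-adic Hecke algebras `𝕋₂(N)`
-/

open NumberField UpperHalfPlane CongruenceSubgroup Matrix
open scoped MatrixGroups ModularForm TensorProduct

set_option warn.classDefReducibility false

noncomputable section

namespace Vale.Agent.P022.Occ

/-! ### Hecke operators -/

/-- `M_k(Γ₁(N))`, the space of all modular forms of weight `k` for `Γ₁(N)`. -/
def M (N : ℕ) (k : ℤ) : Type := ModularForm ((Gamma1 N).map (SpecialLinearGroup.mapGL ℝ)) k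

def groupM (N : ℕ) (k : ℤ) : AddCommGroup (M N k) :=
  (inferInstance : AddCommGroup (ModularForm ((Gamma1 N).map (SpecialLinearGroup.mapGL ℝ)) k))

instance (N : ℕ) (k : ℤ) : AddCommGroup (M N k) := groupM N k

def moduleM (N : ℕ) (k : ℤ) : Module ℂ (M N k) :=
  (inferInstance : Module ℂ (ModularForm ((Gamma1 N).map (SpecialLinearGroup.mapGL ℝ)) k))

instance (N : ℕ) (k : ℤ) : Module ℂ (M N k) := moduleM N k

/-- The function on the upper half plane underlying a modular form. -/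
def fn {N : ℕ} {k : ℤ} (f : M N k) : ℍ → ℂ := f.toFun

/-- `D` is the diamond operator `⟨d⟩`: it maps `f` to `f ∣[k] γ`, for all `γ` in `Γ₀(N)` whose lower
right entry is congruent to `d` modulo `N`. -/
def IsDiamond (N : ℕ) (k : ℤ) (d : ℕ) (D : Module.End ℂ (M N k)) : Prop :=
  ∀ f : M N k, ∀ γ ∈ Gamma0 N, ((γ 1 1 : ℤ) : ZMod N) = d → fn (D f) = fn f ∣[k] γ

/-- `T` is the Hecke operator `T_l`, for a prime `l ∤ N`:
`(T f)(τ) = l⁻¹ ∑_{j < l} f((τ + j) / l) + l ^ (k - 1) (⟨l⟩ f)(l τ)`. -/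
def IsHecke (N : ℕ) (k : ℤ) (l : ℕ) (T : Module.End ℂ (M N k)) : Prop :=
  ∃ D : Module.End ℂ (M N k), IsDiamond N k l D ∧ ∀ (f : M N k) (τ : ℍ),
    fn (T f) τ = (l : ℂ)⁻¹ * ∑ j ∈ Finset.range l, fn f (ofComplex ((τ + j) / l)) +
      (l : ℂ) ^ (k - 1) * fn (D f) (ofComplex (l * τ))

/-! ### Hecke algebras -/

/-- The endomorphisms of `M_1 ⊕ ... ⊕ M_k` preserving every `M_i`; the component with index
`i < k` acts on `M_{i+1}`. -/
def BigEnd (N k : ℕ) : Type := ∀ i : Fin k, Module.End ℂ (M N ((i : ℕ) + 1))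

def ringBigEnd (N k : ℕ) : Ring (BigEnd N k) := Pi.ring

instance (N k : ℕ) : Ring (BigEnd N k) := ringBigEnd N k

/-- `x` is the operator `T_l` on `M_1 ⊕ ... ⊕ M_k`. -/
def IsT (N k l : ℕ) (x : BigEnd N k) : Prop := ∀ i : Fin k, IsHecke N ((i : ℕ) + 1) l (x i)

/-- `x` is the operator `l S_l` on `M_1 ⊕ ... ⊕ M_k`: it acts on `M_i` as `l ^ (i - 1) ⟨l⟩`. -/
def IsS (N k l : ℕ) (x : BigEnd N k) : Prop :=
  ∀ i : Fin k, ∃ D, IsDiamond N ((i : ℕ) + 1) l D ∧ x i = (l : ℂ) ^ (i : ℕ) • D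

/-- The ring `T^{(2)}_{≤k}(N)` generated by the operators `T_l` and `l S_l`, `l ∤ 2N` prime. -/
def heckeRing (N k : ℕ) : Subring (BigEnd N k) :=
  Subring.closure {x | ∃ l : ℕ, l.Prime ∧ ¬ l ∣ 2 * N ∧ (IsT N k l x ∨ IsS N k l x)}

/-- The type of elements of the ring `T^{(2)}_{≤k}(N)`. -/
def HA (N k : ℕ) : Type := heckeRing N k

def ringHA (N k : ℕ) : Ring (HA N k) := Subring.toRing (heckeRing N k)

instance (N k : ℕ) : Ring (HA N k) := ringHA N k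

/-- The operator on `M_1 ⊕ ... ⊕ M_k` underlying an element of `T^{(2)}_{≤k}(N)`. -/
def op {N k : ℕ} (x : HA N k) : BigEnd N k := x.1

/-- Restriction of operators from `M_1 ⊕ ... ⊕ M_{k+1}` to `M_1 ⊕ ... ⊕ M_k`. -/
def resBig {N k : ℕ} (x : BigEnd N (k + 1)) : BigEnd N k := fun i => x i.castSucc

theorem resBig_mem {N k : ℕ} (x : HA N (k + 1)) : resBig (op x) ∈ heckeRing N k := by
  have h : heckeRing N (k + 1) ≤ (heckeRing N k).comap
      (RingHom.pi fun i : Fin k => Pi.evalRingHom _ i.castSucc) :=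
    Subring.closure_le.2 fun x ⟨l, hl, h, hx⟩ => Subring.subset_closure
      ⟨l, hl, h, hx.imp (fun H i => H i.castSucc) (fun H i => H i.castSucc)⟩
  exact h x.2

/-- The map `T^{(2)}_{≤k+1}(N) → T^{(2)}_{≤k}(N)`: restriction of operators. -/
def res (N k : ℕ) : HA N (k + 1) →+* HA N k where
  toFun x := ⟨resBig (op x), resBig_mem x⟩
  map_one' := rfl
  map_mul' _ _ := rfl
  map_zero' := rfl
  map_add' _ _ := rfl

/-- `ℤ₂ ⊗ T^{(2)}_{≤k}(N)`. -/
def ZT (N k : ℕ) : Type := ℤ_[2] ⊗[ℤ] HA N k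

def ringZT (N k : ℕ) : Ring (ZT N k) := Algebra.TensorProduct.instRing

instance (N k : ℕ) : Ring (ZT N k) := ringZT N k

/-- The element `c ⊗ x`. -/
def tmul {N k : ℕ} (c : ℤ_[2]) (x : HA N k) : ZT N k := c ⊗ₜ[ℤ] x

/-- The transition map. -/
def trans (N k : ℕ) : ZT N (k + 1) →+* ZT N k :=
  (Algebra.TensorProduct.map (AlgHom.id ℤ ℤ_[2]) (res N k).toIntAlgHom).toRingHom

/-- The families `(x_k)`, `x_k` in `ℤ₂ ⊗ T^{(2)}_{≤k}(N)`, with `x_{k+1}` mapping to `x_k`. -/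
def limRing (N : ℕ) : Subring (∀ k : ℕ, ZT N k) :=
  ⨅ k : ℕ, RingHom.eqLocus ((trans N k).comp (Pi.evalRingHom _ (k + 1))) (Pi.evalRingHom _ k)

/-- The 2-adic Hecke algebra `𝕋₂(N)`, the inverse limit of the rings `ℤ₂ ⊗ T^{(2)}_{≤k}(N)`. -/
def T2 (N : ℕ) : Type := limRing N

def ringT2 (N : ℕ) : Ring (T2 N) := Subring.toRing (limRing N)

instance (N : ℕ) : Ring (T2 N) := ringT2 N

/-- The topology of `𝕋₂(N)`, the inverse limit of the 2-adic topologies of the rings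
`ℤ₂ ⊗ T^{(2)}_{≤k}(N)`: the sets `{x | x_k ∈ a + 2 ^ n (ℤ₂ ⊗ T^{(2)}_{≤k}(N))}` generate it. -/
instance (N : ℕ) : TopologicalSpace (T2 N) :=
  .generateFrom {U | ∃ (k n : ℕ) (a : ZT N k), U = {x : T2 N | ∃ b : ZT N k, x.1 k = a + 2 ^ n * b}}

/-! ### Galois representations -/

/-- The algebraic numbers, the algebraic integers and the absolute Galois group of `ℚ`. -/
abbrev Qb : Type := AlgebraicClosure ℚ

abbrev Zb : Type := 𝓞 Qb

abbrev GQ : Type := Qb ≃ₐ[ℚ] Qb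

/-- `σ` induces the `q`-th power map on `Zb / P` (for `q = 1`: `σ` is in the inertia group). -/
def PowAt (q : ℕ) (P : Ideal Zb) (σ : GQ) : Prop := ∀ x y : Zb, (y : Qb) = σ x → y - x ^ q ∈ P

/-- `σ` is an arithmetic Frobenius element at the prime `l`. -/
def IsFrobQ (l : ℕ) (σ : GQ) : Prop := ∃ P : Ideal Zb, P.IsPrime ∧ (l : Zb) ∈ P ∧ PowAt l P σ

/-- `c` is a complex conjugation. -/
def IsConjQ (c : GQ) : Prop := ∃ φ : Qb →+* ℂ, ∀ x, φ (c x) = (starRingEnd ℂ) (φ x)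

variable {E : Type}

/-- `r` is unramified at `p`: it is trivial on all inertia groups at `p`. -/
def UnramQ [Field E] (r : GQ →* GL (Fin 2) E) (p : ℕ) : Prop :=
  ∀ P : Ideal Zb, P.IsPrime → (p : Zb) ∈ P → ∀ σ : GQ, PowAt 1 P σ → r σ = 1

/-- `r` is odd: `det r(c) = -1` for a complex conjugation `c`. -/
def IsOdd [Field E] (r : GQ →* GL (Fin 2) E) : Prop :=
  ∃ c, IsConjQ c ∧ (r c : Matrix (Fin 2) (Fin 2) E).det = -1

/-- `r` is absolutely irreducible: over no extension field `F` of `E` there is a line stable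
under `r`. -/
def AbsIrred [Field E] (r : GQ →* GL (Fin 2) E) : Prop :=
  ∀ (F : Type) [Field F] (i : E →+* F) (w : Fin 2 → F), w ≠ 0 →
    ∃ σ : GQ, ∀ c : F, ((r σ : Matrix (Fin 2) (Fin 2) E).map i).mulVec w ≠ c • w

/-- `r` occurs at level `N`: it is unramified at all primes `l ∤ 2N` and there is a continuous
`ℤ₂`-algebra homomorphism `lam` from `𝕋₂(N)` to the ring of integers `{x | ‖x‖ ≤ 1}` of `E` with
`lam(T_l) = tr r(Frob_l)` and `lam(l S_l) = det r(Frob_l)` for all primes `l ∤ 2N`. -/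
def Occurs [NormedField E] [NormedAlgebra ℚ_[2] E] (r : GQ →* GL (Fin 2) E) (N : ℕ) : Prop :=
  (∀ l : ℕ, l.Prime → ¬ l ∣ 2 * N → UnramQ r l) ∧
  ∃ lam : T2 N →+* E, Continuous lam ∧ (∀ x, ‖lam x‖ ≤ 1) ∧
    (∀ c : ℤ_[2], ∃ x : T2 N, (∀ k, x.1 k = tmul c 1) ∧ lam x = algebraMap ℚ_[2] E (c : ℚ_[2])) ∧
    ∀ (l : ℕ), l.Prime → ¬ l ∣ 2 * N → ∃ t s : T2 N,
      (∀ k, ∃ x : HA N k, IsT N k l (op x) ∧ t.1 k = tmul 1 x) ∧
      (∀ k, ∃ x : HA N k, IsS N k l (op x) ∧ s.1 k = tmul 1 x) ∧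
      ∀ σ : GQ, IsFrobQ l σ → lam t = (r σ : Matrix (Fin 2) (Fin 2) E).trace ∧
        lam s = (r σ : Matrix (Fin 2) (Fin 2) E).det

end Vale.Agent.P022.Occ
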