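import Vale.Agent.P022.Occ.Defs
import Vale.Agent.P022.H121.Q1
import Vale.Agent.P022.H121.Main

/-! Comparison of the operators of `Occ.Defs` with the ones of the development. -/

open UpperHalfPlane Matrix CongruenceSubgroup
open scoped ModularForm MatrixGroups TensorProduct

noncomputable section

namespace Vale.Agent.P022.Occ

variable {N : ℕ} [NeZero N] {k : ℤ}

theorem fn_injective {f g : M N k} (h : fn f = fn g) : f = g :=
  DFunLike.coe_injective (F := MF N k) h

/-- An endomorphism of `MF N k` as an endomorphism of `M N k`. -/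
def toOcc (T : Module.End ℂ (MF N k)) : Module.End ℂ (M N k) := T

theorem fn_toOcc (T : Module.End ℂ (MF N k)) (f : M N k) :
    fn (toOcc T f) = ((T (show MF N k from f) : MF N k) : ℍ → ℂ) := rfl

theorem end_ext {S T : Module.End ℂ (M N k)} (h : ∀ f, fn (S f) = fn (T f)) : S = T :=
  LinearMap.ext fun f => fn_injective (h f)

theorem isDiamond {d : ℕ} (hd : Nat.Coprime d N) : IsDiamond N k d (toOcc (diamond N k d)) := by
  intro f γ hγ h
  have h1 : (N : ℤ) ∣ γ 1 0 := (ZMod.intCast_zmod_eq_zero_iff_dvd _ _).1 (Gamma0_mem.1 hγ)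
  have h2 : (N : ℤ) ∣ γ 1 1 - d := by
    rw [← ZMod.intCast_zmod_eq_zero_iff_dvd]
    push_cast
    rw [h, sub_self]
  exact (diamond_coe_of hd h1 h2 _).symm

theorem isDiamond_iff {d : ℕ} (hd : Nat.Coprime d N) {D : Module.End ℂ (M N k)} :
    IsDiamond N k d D ↔ D = toOcc (diamond N k d) := by
  constructor
  · intro h
    apply end_ext
    intro f
    have h1 : diaMat N d ∈ Gamma0 N := by
      rw [Gamma0_mem, diaMat_10 hd]
      simp
    have h2 : (((diaMat N d) 1 1 : ℤ) : ZMod N) = d := by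
      rw [diaMat_11 hd]
      simp
    rw [h f _ h1 h2, isDiamond hd f _ h1 h2]
  · rintro rfl
    exact isDiamond hd

theorem hecke_formula {l : ℕ} (hl : l.Prime) (hN : ¬ l ∣ N) (f : MF N k) (τ : ℍ) :
    (heckeOp N k l hl hN f : ℍ → ℂ) τ =
      (l : ℂ)⁻¹ * ∑ j ∈ Finset.range l, (f : ℍ → ℂ) (ofComplex ((τ + j) / l)) +
      (l : ℂ) ^ (k - 1) * (diamond N k l f : ℍ → ℂ) (ofComplex (l * τ)) := by
  have hl0 : (l : ℂ) ≠ 0 := by exact_mod_cast hl.ne_zero
  have hdet : (l : ℚ) * 1 - 0 * 0 ≠ 0 := by simpa using hl.ne_zero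
  have e : (heckeOp N k l hl hN f : ℍ → ℂ) =
      (∑ j : Fin l, ((f : ℍ → ℂ) ∣[k] ((hRep N l hl (some j)).map (algebraMap ℚ ℝ)))) +
        (diamond N k l f : ℍ → ℂ) ∣[k] ((rmat l 0 0 1 hdet).map (algebraMap ℚ ℝ)) := by
    rw [heckeOp_coe, Fintype.sum_option, add_comm]
    congr 1
    rw [diamond_coe, hRep, map_mul, ← mapGL_rat, SlashAction.slash_mul]
    rfl
  rw [e, Pi.add_apply, Finset.sum_apply, Finset.mul_sum]
  congr 1
  · rw [← Fin.sum_univ_eq_sum_range (fun j => (l : ℂ)⁻¹ * (f : ℍ → ℂ) (ofComplex ((τ + j) / l))) l]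
    refine Finset.sum_congr rfl fun j _ => ?_
    obtain ⟨τ', e1, e2⟩ := slash_tri k (f := (f : ℍ → ℂ)) (a := 1) (b := ((j : ℕ) : ℚ))
      (d := (l : ℚ)) (by simpa using hl.ne_zero) one_pos (by exact_mod_cast hl.pos) τ
    rw [hRep, e2]
    have e3 : ((τ : ℂ) + (j : ℕ)) / l = τ' := by
      rw [e1]; push_cast; rw [one_mul]
    rw [e3, ofComplex_apply]
    have e4 : (((1 : ℚ) : ℂ) * ((l : ℚ) : ℂ)) ^ (k - 1) * ((l : ℚ) : ℂ) ^ (-k) = (l : ℂ)⁻¹ := by
      push_cast
      rw [one_mul, zpow_sub₀ hl0, _root_.zpow_neg, zpow_one]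
      have : (l : ℂ) ^ k ≠ 0 := zpow_ne_zero _ hl0
      field_simp
    rw [e4]
  · obtain ⟨τ', e1, e2⟩ := slash_tri k (f := (diamond N k l f : ℍ → ℂ)) (a := (l : ℚ)) (b := 0)
      (d := 1) hdet (by exact_mod_cast hl.pos) one_pos τ
    rw [e2]
    have e3 : (l : ℂ) * τ = τ' := by
      rw [e1]; push_cast; ring
    rw [e3, ofComplex_apply]
    push_cast
    rw [mul_one, _root_.one_zpow, mul_one]

theorem isHecke_iff {l : ℕ} (hl : l.Prime) (hN : ¬ l ∣ N) {T : Module.End ℂ (M N k)} :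
    IsHecke N k l T ↔ T = toOcc (heckeOp N k l hl hN) := by
  have hd := coprime_of_not_dvd hl hN
  constructor
  · rintro ⟨D, hD, h⟩
    apply end_ext
    intro f
    funext τ
    rw [h f τ, (isDiamond_iff hd).1 hD, fn_toOcc, fn_toOcc, hecke_formula hl hN]
    rfl
  · rintro rfl
    exact ⟨_, isDiamond hd, fun f τ => hecke_formula hl hN _ τ⟩

/-- An element of the old `BigEnd` as an element of the new one. -/
def toBig {N k : ℕ} (x : Vale.Agent.P022.BigEnd N k) : BigEnd N k := fun i => toOccAux (x i)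
where toOccAux {N : ℕ} {k : ℤ} (T : Module.End ℂ (MF N k)) : Module.End ℂ (M N k) := T

theorem isT_iff {k l : ℕ} (hl : l.Prime) (hN : ¬ l ∣ N) {x : BigEnd N k} :
    IsT N k l x ↔ x = toBig (opT N k l hl hN) := by
  constructor
  · intro h
    funext i
    exact (isHecke_iff hl hN).1 (h i)
  · rintro rfl i
    exact (isHecke_iff hl hN).2 rfl

theorem isS_iff {k l : ℕ} (hl : Nat.Coprime l N) {x : BigEnd N k} :
    IsS N k l x ↔ x = toBig (opS N k l) := by
  constructor
  · intro h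
    funext i
    obtain ⟨D, hD, h1⟩ := h i
    rw [h1, (isDiamond_iff hl).1 hD]
    rfl
  · rintro rfl i
    exact ⟨_, isDiamond hl, rfl⟩

end Vale.Agent.P022.Occ
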