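import Vale.Agent.P022.Occ.Hecke
import Vale.Agent.P022.H120.Top

/-! Transfer of the main theorem to the definitions of `Occ.Defs`. -/

open UpperHalfPlane Matrix CongruenceSubgroup
open scoped ModularForm MatrixGroups TensorProduct

noncomputable section

namespace Vale.Agent.P022.Occ

/-- The identity, as a ring homomorphism. -/
def toBigHom (N k : ℕ) : Vale.Agent.P022.BigEnd N k →+* BigEnd N k where
  toFun := toBig
  map_one' := rfl
  map_mul' _ _ := rfl
  map_zero' := rfl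
  map_add' _ _ := rfl

variable (N : ℕ) [NeZero N]

theorem gens_eq (k : ℕ) : {x | ∃ l : ℕ, l.Prime ∧ ¬ l ∣ 2 * N ∧ (IsT N k l x ∨ IsS N k l x)} =
    toBigHom N k '' heckeGens N k := by
  ext x
  constructor
  · rintro ⟨l, hl, h, hx⟩
    have hN : ¬ l ∣ N := fun h' => h (h'.mul_left 2)
    rcases hx with hx | hx
    · exact ⟨_, ⟨l, hl, h, Or.inl rfl⟩, ((isT_iff hl hN).1 hx).symm⟩
    · exact ⟨_, ⟨l, hl, h, Or.inr rfl⟩, ((isS_iff (coprime_of_not_dvd hl hN)).1 hx).symm⟩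
  · rintro ⟨_, ⟨l, hl, h, rfl | rfl⟩, rfl⟩
    · exact ⟨l, hl, h, Or.inl ((isT_iff hl (fun h' => h (h'.mul_left 2))).2 rfl)⟩
    · exact ⟨l, hl, h, Or.inr ((isS_iff (coprime_of_not_dvd hl
        (fun h' => h (h'.mul_left 2)))).2 rfl)⟩

theorem heckeRing_eq (k : ℕ) :
    heckeRing N k = (Subring.closure (heckeGens N k)).map (toBigHom N k) := by
  rw [heckeRing, gens_eq, RingHom.map_closure]

theorem mem_heckeAlg (k : ℕ) (x : Vale.Agent.P022.BigEnd N k) :
    x ∈ heckeAlg N k ↔ x ∈ Subring.closure (heckeGens N k) := by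
  constructor
  · intro h
    induction h using Algebra.adjoin_induction with
    | mem x hx => exact Subring.subset_closure hx
    | algebraMap r =>
      have h1 : algebraMap ℤ (Vale.Agent.P022.BigEnd N k) r = (r : Vale.Agent.P022.BigEnd N k) := by
        simp
      rw [h1]
      exact intCast_mem _ r
    | add x y _ _ hx hy => exact add_mem hx hy
    | mul x y _ _ hx hy => exact mul_mem hx hy
  · intro h
    have h1 : Subring.closure (heckeGens N k) ≤ (heckeAlg N k).toSubring :=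
      Subring.closure_le.2 Algebra.subset_adjoin
    exact h1 h

theorem toBig_mem (k : ℕ) (P : FreeAlgebra ℤ (Gen N)) :
    toBigHom N k (opsHom N k P) ∈ heckeRing N k := by
  have h : toBigHom N k (opsHom N k P) ∈
      (Subring.closure (heckeGens N k)).map (toBigHom N k) :=
    ⟨_, (mem_heckeAlg N k _).1 (opsHom_mem N k P), rfl⟩
  rw [heckeRing_eq]
  exact h

/-- Evaluation of noncommutative polynomials in the Hecke ring. -/
def pi (k : ℕ) : FreeAlgebra ℤ (Gen N) →+* HA N k where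
  toFun P := ⟨toBigHom N k (opsHom N k P), toBig_mem N k P⟩
  map_one' := Subtype.ext (congrArg (toBigHom N k) (map_one (opsHom N k)))
  map_mul' x y := Subtype.ext (congrArg (toBigHom N k) (map_mul (opsHom N k) x y))
  map_zero' := Subtype.ext (congrArg (toBigHom N k) (map_zero (opsHom N k)))
  map_add' x y := Subtype.ext (congrArg (toBigHom N k) (map_add (opsHom N k) x y))

theorem pi_surjective (k : ℕ) : Function.Surjective (pi N k) := by
  rintro ⟨y, hy⟩
  rw [heckeRing_eq] at hy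
  obtain ⟨x, hx, rfl⟩ := hy
  have h1 := (mem_heckeAlg N k x).2 hx
  rw [← opsHom_range] at h1
  obtain ⟨P, hP⟩ := h1
  exact ⟨P, Subtype.ext (congrArg (toBigHom N k) hP)⟩

theorem res_pi (k : ℕ) (P : FreeAlgebra ℤ (Gen N)) : res N k (pi N (k + 1) P) = pi N k P := by
  apply Subtype.ext
  exact congrArg (toBigHom N k) (restrBig_opsHom N k P)

theorem pi_eq_zero {k : ℕ} {P : FreeAlgebra ℤ (Gen N)} (h : pi N k P = 0) :
    opsHom N k P = 0 := congrArg Subtype.val h

omit [NeZero N] in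
theorem mem_limRing {x : ∀ k : ℕ, ZT N k} :
    x ∈ limRing N ↔ ∀ k, trans N k (x (k + 1)) = x k := by
  rw [limRing, Subring.mem_iInf]
  rfl

omit [NeZero N] in
theorem trans_eq (k : ℕ) (x : ZT N (k + 1)) :
    trans N k x = Vale.Agent.P022.trans (HA N) (res N) k x := by
  change ℤ_[2] ⊗[ℤ] HA N (k + 1) at x
  induction x using TensorProduct.induction_on with
  | zero => exact (map_zero (trans N k)).trans (map_zero (P022.trans (HA N) (res N) k)).symm
  | tmul a b => rfl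
  | add x y hx hy =>
    exact (map_add (trans N k) x y).trans
      ((congrArg₂ (· + ·) hx hy).trans (map_add (P022.trans (HA N) (res N) k) x y).symm)

/-- The comparison map of the inverse limits. -/
def cmp : T2 N →+* limAlg (HA N) (res N) where
  toFun x := ⟨x.1, (mem_limAlg _ _).2 fun k => by
    have h := (mem_limRing N).1 x.2 k
    rw [trans_eq] at h
    exact h⟩
  map_one' := rfl
  map_mul' _ _ := rfl
  map_zero' := rfl
  map_add' _ _ := rfl

omit [NeZero N] in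
theorem continuous_cmp : @Continuous _ _ _ (limTop (HA N) (res N)) (cmp N) := by
  rw [continuous_iInf_rng]
  intro k
  rw [continuous_iInf_rng]
  intro n
  rw [continuous_induced_rng]
  let _ : TopologicalSpace ((ℤ_[2] ⊗[ℤ] HA N k) ⧸ twoPow (HA N) k n) := ⊥
  have : DiscreteTopology ((ℤ_[2] ⊗[ℤ] HA N k) ⧸ twoPow (HA N) k n) := ⟨rfl⟩
  refine ⟨fun s _ => ?_⟩
  rw [isOpen_iff_forall_mem_open]
  intro x hx
  refine ⟨{y : T2 N | ∃ b : ZT N k, y.1 k = x.1 k + 2 ^ n * b}, ?_, ?_, ⟨0, by simp⟩⟩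
  · rintro y ⟨b, hb⟩
    change (QuotientAddGroup.mk (y.1 k) : (ℤ_[2] ⊗[ℤ] HA N k) ⧸ twoPow (HA N) k n) ∈ s
    have h0 : (2 ^ n : ℕ) • b = -x.1 k + y.1 k := by
      rw [hb, neg_add_cancel_left, nsmul_eq_mul]
      push_cast
      rfl
    have h1 : (QuotientAddGroup.mk (x.1 k) : (ℤ_[2] ⊗[ℤ] HA N k) ⧸ twoPow (HA N) k n) =
        QuotientAddGroup.mk (y.1 k) :=
      (QuotientAddGroup.eq (s := twoPow (HA N) k n)).2 ⟨b, h0⟩
    exact Eq.mp (congrArg (· ∈ s) h1) hx
  · exact TopologicalSpace.isOpen_generateFrom_of_mem ⟨k, n, x.1 k, rfl⟩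

/-- The element `(1 ⊗ π_k(P))` of the inverse limit. -/
def el (P : FreeAlgebra ℤ (Gen N)) : T2 N :=
  ⟨fun k => tmul 1 (pi N k P), (mem_limRing N).2 fun k => by
    have h := res_pi N k P
    rw [← h]
    rfl⟩

theorem cmp_el (P : FreeAlgebra ℤ (Gen N)) :
    cmp N (el N P) = limMk (HA N) (res N) (fun k => pi N k P) fun k => res_pi N k P := rfl

/-- The constant `c` of the inverse limit. -/
def cst (c : ℤ_[2]) : T2 N :=
  ⟨fun k => tmul c 1, (mem_limRing N).2 fun k => by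
    change (c ⊗ₜ[ℤ] (res N k 1) : ℤ_[2] ⊗[ℤ] HA N k) = _
    rw [map_one]
    rfl⟩

theorem cmp_cst (c : ℤ_[2]) : cmp N (cst N c) = algebraMap ℤ_[2] (limAlg (HA N) (res N)) c := rfl

theorem main_occ (v : AbsoluteValue ℂ ℝ) (E : Type) [NormedField E] [NormedAlgebra ℚ_[2] E]
    [CompleteSpace E] (i : E →+* ℂ) (hi : ∀ x, v (i x) = ‖x‖) (t d : ℕ → E)
    (htd : ∀ l : ℕ, l.Prime → ¬ l ∣ 2 * N → ‖t l‖ ≤ 1 ∧ ‖d l‖ ≤ 1)
    (hsys : SysOK v N (fun l => i (t l)) (fun l => i (d l))) :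
    ∃ lam : T2 N →+* E, Continuous lam ∧ (∀ x, ‖lam x‖ ≤ 1) ∧
      (∀ c : ℤ_[2], ∃ x : T2 N, (∀ k, x.1 k = tmul c 1) ∧
        lam x = algebraMap ℚ_[2] E (c : ℚ_[2])) ∧
      ∀ (l : ℕ), l.Prime → ¬ l ∣ 2 * N → ∃ x y : T2 N,
        (∀ k, ∃ z : HA N k, IsT N k l (op z) ∧ x.1 k = tmul 1 z) ∧
        (∀ k, ∃ z : HA N k, IsS N k l (op z) ∧ y.1 k = tmul 1 z) ∧ lam x = t l ∧ lam y = d l := by
  have hu := isUltra E
  have hval : ∀ P, i (evHom N t d P) = evHom N (fun l => i (t l)) (fun l => i (d l)) P := by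
    intro P
    have h : (i.toIntAlgHom).comp (evHom N t d) =
        evHom N (fun l => i (t l)) (fun l => i (d l)) := by
      apply FreeAlgebra.hom_ext
      funext x
      simp only [evHom, Function.comp_apply, AlgHom.comp_apply, FreeAlgebra.lift_ι_apply]
      obtain ⟨⟨l, hl, h⟩, b⟩ := x
      cases b <;> rfl
    exact DFunLike.congr_fun h P
  have hev : ∀ P, ‖evHom N t d P‖ ≤ 1 := by
    intro P
    induction P using FreeAlgebra.induction with
    | grade0 r =>
      rw [AlgHom.commutes]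
      have h : (algebraMap ℤ E r) = algebraMap ℚ_[2] E r := by simp
      rw [h, norm_algebraMap']
      exact Padic.norm_int_le_one r
    | grade1 x =>
      rw [evHom, FreeAlgebra.lift_ι_apply]
      obtain ⟨⟨l, hl, h⟩, b⟩ := x
      cases b
      · exact (htd l hl h).1
      · exact (htd l hl h).2
    | mul x y hx hy =>
      rw [map_mul, norm_mul]
      exact mul_le_one₀ hx (norm_nonneg _) hy
    | add x y hx hy =>
      rw [map_add]
      exact (IsUltrametricDist.norm_add_le_max _ _).trans (max_le hx hy)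
  obtain ⟨lam, h1, h2, h3, h4⟩ := exists_limChar (HA N) (res N) (pi N)
    ((evHom N t d : FreeAlgebra ℤ (Gen N) →ₐ[ℤ] E) : FreeAlgebra ℤ (Gen N) →+* E)
    (pi_surjective N) (res_pi N) hev (fun m => by
      obtain ⟨k, hk⟩ := hsys m
      refine ⟨k, fun P hP => ?_⟩
      have := hk P (pi_eq_zero N hP)
      rw [← hval, hi] at this
      exact this)
  refine ⟨lam.comp (cmp N), ?_, fun x => h2 _, fun c => ⟨cst N c, fun k => rfl, h3 c⟩,
    fun l hl h => ?_⟩
  · exact @Continuous.comp _ _ _ _ (limTop (HA N) (res N)) _ _ _ h1 (continuous_cmp N)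
  · have hN : ¬ l ∣ N := fun h' => h (h'.mul_left 2)
    refine ⟨el N (FreeAlgebra.ι ℤ (⟨⟨l, hl, h⟩, false⟩ : Gen N)),
      el N (FreeAlgebra.ι ℤ (⟨⟨l, hl, h⟩, true⟩ : Gen N)), fun k => ⟨_, ?_, rfl⟩,
      fun k => ⟨_, ?_, rfl⟩, ?_, ?_⟩
    · rw [isT_iff hl hN]
      change toBigHom N k (opsHom N k _) = _
      rw [opsHom, FreeAlgebra.lift_ι_apply]
      rfl
    · rw [isS_iff (coprime_of_not_dvd hl hN)]
      change toBigHom N k (opsHom N k _) = _
      rw [opsHom, FreeAlgebra.lift_ι_apply]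
      rfl
    · refine (h4 _).trans ?_
      change evHom N t d _ = _
      rw [evHom, FreeAlgebra.lift_ι_apply]
      rfl
    · refine (h4 _).trans ?_
      change evHom N t d _ = _
      rw [evHom, FreeAlgebra.lift_ι_apply]
      rfl

open NumberField H120

theorem dihedral_occurs (hG : G_statement) (hS : HeckeSys)
    (E : Type) [NormedField E] [NormedAlgebra ℚ_[2] E] [FiniteDimensional ℚ_[2] E]
    (r : GQ →* GL (Fin 2) E) (hr : Continuous r) (hodd : IsOdd r) (hirr : AbsIrred r)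
    (hfin : {p : ℕ | p.Prime ∧ ¬ UnramQ r p}.Finite)
    (H : Subgroup GQ) (hH : H.index = 2) (hc : ∀ a ∈ H, ∀ b ∈ H, r a * r b = r b * r a) :
    ∃ N : ℕ, Odd N ∧ (∀ p : ℕ, p.Prime → p ∣ N → ¬ UnramQ r p) ∧ Occurs r N := by
  classical
  obtain ⟨v, i, hv, hi, K, _, _, hK, w, N0, Ψ, hw, hN0, hΨ, hram, hfrob⟩ :=
    galois_side hG E r hr hodd hirr hfin H hH hc
  have hNpos : lvl K N0 ≠ 0 := (lvl_odd hN0).pos.ne'
  have hne : NeZero (lvl K N0) := ⟨hNpos⟩
  refine ⟨lvl K N0, lvl_odd hN0, hram, fun l hl hlN => (hfrob l hl hlN).1, ?_⟩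
  have hex : ∀ l : ℕ, ∃ σ : GQ, l.Prime → P022.IsFrobQ l σ := fun l => by
    by_cases hl : l.Prime
    · obtain ⟨σ, hσ⟩ := exists_frobQ hl
      exact ⟨σ, fun _ => hσ⟩
    · exact ⟨1, fun h => absurd h hl⟩
  choose F hF using hex
  set t : ℕ → E := fun l => (r (F l) : Matrix (Fin 2) (Fin 2) E).trace with ht
  set d : ℕ → E := fun l => (r (F l) : Matrix (Fin 2) (Fin 2) E).det with hd
  have ht' : ∀ l : ℕ, l.Prime → ¬ l ∣ 2 * lvl K N0 → i (t l) = coef Ψ l := fun l hl hlN =>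
    ((hfrob l hl hlN).2 (F l) (hF l hl)).1
  have hd' : ∀ l : ℕ, l.Prime → ¬ l ∣ 2 * lvl K N0 → i (d l) = neben Ψ l := fun l hl hlN =>
    ((hfrob l hl hlN).2 (F l) (hF l hl)).2
  have : CompleteSpace E := FiniteDimensional.complete ℚ_[2] E
  obtain ⟨lam, hcont, hnorm, hlin, hval⟩ := main_occ (lvl K N0) v E i hi t d
    (fun l hl hlN => by
      rw [← hi, ← hi, ht' l hl hlN, hd' l hl hlN]
      exact ⟨v_coef_le hv hΨ l, v_neben_le hv hΨ l⟩)
    (by
      intro m
      obtain ⟨k, hk⟩ := hS v hv K hK w hw N0 hN0 Ψ hΨ m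
      refine ⟨k, fun P hP => ?_⟩
      have h1 := hk P hP
      have h2 : valGen (lvl K N0) (fun l => i (t l)) (fun l => i (d l))
          = valGen (lvl K N0) (coef Ψ) (neben Ψ) := by
        funext x
        unfold valGen
        have h3 := ht' x.1 x.1.2.1 x.1.2.2
        have h4 := hd' x.1 x.1.2.1 x.1.2.2
        beta_reduce
        rw [h3, h4]
      unfold evHom at h1 ⊢
      rw [h2]
      exact h1)
  refine ⟨lam, hcont, hnorm, hlin, fun l hl hlN => ?_⟩
  obtain ⟨x, y, hx, hy, h1, h2⟩ := hval l hl hlN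
  refine ⟨x, y, hx, hy, fun σ hσ => ?_⟩
  obtain ⟨h3, h4⟩ := (hfrob l hl hlN).2 σ hσ
  constructor
  · rw [h1]
    apply i.injective
    rw [ht' l hl hlN, h3]
  · rw [h2]
    apply i.injective
    rw [hd' l hl hlN, h4]

end Vale.Agent.P022.Occ
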